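import Vale.Agent.P011.H428.C2Nrd
import Vale.Agent.P011.H738.FDefs

/-!
Symmetric elements in every characteristic (letters `Anis`), and their reduced norms over global
function fields. (helper308, after helper428)
-/

open Module

set_option linter.unusedSectionVars false
set_option linter.unusedSimpArgs false

namespace Vale.Agent.P011.H308.C2

open Vale.Agent.P011.H738 Vale.Agent.P011.H271 Vale.Agent.P011.H428

section field

variable {k K : Type} [Field k] [Field K] [StarRing K] [Algebra k K]

/-- An element of trace one. -/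
theorem exists_omega (hne : ∃ x : K, star x ≠ x) : ∃ w : K, w + star w = 1 := by
  obtain ⟨y, hy⟩ : ∃ y : K, y + star y ≠ 0 := by
    obtain ⟨x, hx⟩ := hne
    by_cases h : x + star x = 0
    · refine ⟨1, fun h1 => hx ?_⟩
      rw [star_one] at h1
      have h2 : star x = -x := by
        rw [eq_neg_iff_add_eq_zero, add_comm]
        exact h
      have h3 : -x = x := by
        rw [neg_eq_iff_add_eq_zero]
        calc x + x = (1 + 1) * x := by ring
          _ = 0 := by rw [h1, zero_mul]
      rw [h2, h3]
    · exact ⟨x, h⟩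
  have hs : star (y + star y) = y + star y := by rw [star_add, star_star, add_comm]
  refine ⟨y / (y + star y), ?_⟩
  rw [star_div₀, hs, ← add_div, div_self hy]

theorem star_algk (hfix : ∀ x : K, star x = x ↔ x ∈ Set.range (algebraMap k K)) (c : k) :
    star (algebraMap k K c) = algebraMap k K c := (hfix _).mpr ⟨c, rfl⟩

end field

section ring

variable {k K D : Type} [Field k] [Field K] [StarRing K] [Ring D] [StarRing D]
  [Algebra k K] [Algebra k D] [Algebra K D] [IsScalarTower k K D] [StarModule K D] {n : ℕ}

theorem star_algKD (c : K) : star (algebraMap K D c) = algebraMap K D (star c) := by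
  rw [Algebra.algebraMap_eq_smul_one, star_smul, star_one, ← Algebra.algebraMap_eq_smul_one]

variable (hfix : ∀ x : K, star x = x ↔ x ∈ Set.range (algebraMap k K))
include hfix

theorem star_smulk (c : k) (x : D) : star (c • x) = c • star x := by
  rw [← algebraMap_smul K c x, star_smul, star_algk hfix, algebraMap_smul]

/-- The symmetric elements. -/
def symG : Submodule k D where
  carrier := {x | star x = x}
  zero_mem' := star_zero D
  add_mem' {x y} hx hy := by
    change star (x + y) = x + y
    rw [star_add]
    exact congrArg₂ _ hx hy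
  smul_mem' c x hx := by
    change star (c • x) = c • x
    rw [star_smulk hfix]
    exact congrArg _ hx

theorem mem_symG {x : D} : x ∈ symG (D := D) hfix ↔ star x = x := Iff.rfl

/-- The decomposition in symmetric coordinates. -/
theorem sym_decomp {t : K} (ht : star t ≠ t) (x : D) :
    ∃ a b : D, star a = a ∧ star b = b ∧ x = a + t • b := by
  have h0 : t - star t ≠ 0 := sub_ne_zero.mpr fun h => ht h.symm
  have hs : star (t - star t)⁻¹ = -(t - star t)⁻¹ := by
    rw [star_inv₀, star_sub, star_star, ← neg_sub, inv_neg]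
  obtain ⟨b, hb⟩ : ∃ b : D, b = (t - star t)⁻¹ • (x - star x) := ⟨_, rfl⟩
  have hb1 : star b = b := by
    rw [hb, star_smul, hs, star_sub, star_star, neg_smul, ← smul_neg, neg_sub]
  refine ⟨x - t • b, b, ?_, hb1, by abel⟩
  have h1 : (t - star t) • b = x - star x := by rw [hb, smul_smul, mul_inv_cancel₀ h0, one_smul]
  rw [star_sub, star_smul, hb1]
  rw [sub_smul] at h1
  have h2 : star x = x - (t • b - star t • b) := by rw [h1]; abel
  rw [h2]
  abel

theorem sym_unique {t : K} (ht : star t ≠ t) {a b : D} (ha : star a = a) (hb : star b = b)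
    (h : a + t • b = 0) : a = 0 ∧ b = 0 := by
  have h0 : t - star t ≠ 0 := sub_ne_zero.mpr fun h => ht h.symm
  have h1 := congrArg star h
  rw [star_add, star_smul, ha, hb, star_zero] at h1
  have h2 : (t - star t) • b = 0 := by
    rw [sub_smul]
    calc t • b - star t • b = (a + t • b) - (a + star t • b) := by abel
      _ = 0 := by rw [h, h1, sub_zero]
  have hb0 : b = 0 := by
    have h3 := congrArg (fun y => (t - star t)⁻¹ • y) h2
    simpa [smul_smul, inv_mul_cancel₀ h0] using h3
  refine ⟨?_, hb0⟩
  rwa [hb0, smul_zero, add_zero] at h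

/-- The algebra is twice the symmetric part. -/
theorem finrank_symG (hne : ∃ x : K, star x ≠ x) [Module.Finite k D] :
    2 * finrank k (symG (D := D) hfix) = finrank k D := by
  obtain ⟨t, ht⟩ := hne
  let m : D →ₗ[k] D := (LinearMap.lsmul K D t).restrictScalars k
  have hm : ∀ x, m x = t • x := fun _ => rfl
  let e : (symG (D := D) hfix × symG (D := D) hfix) →ₗ[k] D :=
    (symG (D := D) hfix).subtype.coprod (m.comp (symG (D := D) hfix).subtype)
  have he : ∀ p, e p = (p.1 : D) + t • (p.2 : D) := by
    intro p
    rw [LinearMap.coprod_apply]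
    rfl
  have hb : Function.Bijective e := by
    constructor
    · rw [← LinearMap.ker_eq_bot, LinearMap.ker_eq_bot']
      intro p hp
      rw [he] at hp
      obtain ⟨h1, h2⟩ := sym_unique hfix ht p.1.2 p.2.2 hp
      exact Prod.ext (Subtype.ext h1) (Subtype.ext h2)
    · intro x
      obtain ⟨a, b, ha, hb, hx⟩ := sym_decomp hfix ht x
      exact ⟨(⟨a, ha⟩, ⟨b, hb⟩), by rw [he]; exact hx.symm⟩
  have h1 := (LinearEquiv.ofBijective e hb).finrank_eq
  rw [finrank_prod] at h1
  omega

end ring

section main

variable {k K D : Type} [Field k] [Field K] [StarRing K] [DivisionRing D] [StarRing D]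
  [Algebra k K] [Algebra k D] [Algebra K D] [IsScalarTower k K D] [StarModule K D] {n : ℕ}
  (hA : Anis k K D n) (hn : n ≠ 0)
include hA hn

theorem fin_KD : FiniteDimensional K D :=
  FiniteDimensional.of_finrank_pos (by rw [hA.finrank_eq]; positivity)

theorem fin_kDG : FiniteDimensional k D := by
  have := fin_KD hA hn
  have := (Vale.Agent.P011.H519.quad hA.fixed hA.star_ne).1
  exact FiniteDimensional.trans k K D

theorem finrank_kDG : finrank k D = 2 * n ^ 2 := by
  rw [← finrank_mul_finrank k K D, (Vale.Agent.P011.H519.quad hA.fixed hA.star_ne).2.2,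
    hA.finrank_eq]

theorem finrank_symA : finrank k (symG (D := D) hA.fixed) = n ^ 2 := by
  have := fin_kDG hA hn
  have h1 := finrank_symG (D := D) hA.fixed hA.star_ne
  have h2 := finrank_kDG hA hn
  omega

variable [GFF k] {Ω : Type*} [Field Ω] [Algebra K Ω] (f : D →ₐ[K] Matrix (Fin n) (Fin n) Ω)

/-- **Every element of the fixed field is the reduced norm of a symmetric element**, every
characteristic. -/
theorem exists_sym_nrdG (c : k) : ∃ y : D, star y = y ∧
    (f y).det = algebraMap K Ω (algebraMap k K c) := by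
  have := fin_KD hA hn
  have := hA.central
  have := fin_kDG hA hn
  let _ : Algebra k Ω := ((algebraMap K Ω).comp (algebraMap k K)).toAlgebra
  have : IsScalarTower k K Ω := IsScalarTower.of_algebraMap_eq fun _ => rfl
  obtain ⟨x, hx⟩ := exists_det_eq (k := k) (V := symG (D := D) hA.fixed) (Ω := Ω)
    (Nat.pos_of_ne_zero hn)
    ((f.toLinearMap.restrictScalars k).comp (symG (D := D) hA.fixed).subtype)
    (fun x hx => by
      by_contra h0
      exact det_ne_zero_of f (fun h => h0 (Subtype.ext h)) hx)
    (fun x => by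
      obtain ⟨ν, hν⟩ := H268.exists_nrd (Nat.pos_of_ne_zero hn) hA.finrank_eq f (x : D)
      obtain ⟨c, hc⟩ := (hA.fixed ν).mp (H268.star_nrd (Nat.pos_of_ne_zero hn) hA.finrank_eq
        (star_algKD (D := D)) f ((mem_symG hA.fixed).mp x.2) hν)
      exact ⟨c, by
        change (f (x : D)).det = _
        rw [hν, ← hc]; rfl⟩)
    (finrank_symA hA hn).ge c
  exact ⟨x, (mem_symG hA.fixed).mp x.2, hx⟩

/-- An element whose reduced norm is fixed by the involution is the product of an element of
reduced norm one and a symmetric element. -/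
theorem exists_sym_factorG {Z : D} (hZ : Z ≠ 0) (h : (f (star Z)).det = (f Z).det) :
    ∃ u y : D, u ≠ 0 ∧ y ≠ 0 ∧ star y = y ∧ (f u).det = 1 ∧ Z = u * y := by
  have := fin_KD hA hn
  have := hA.central
  have := fin_kDG hA hn
  have hn' := Nat.pos_of_ne_zero hn
  have hne : Nonempty (Fin n) := ⟨⟨0, hn'⟩⟩
  obtain ⟨ν, hν⟩ := H268.exists_nrd hn' hA.finrank_eq f Z
  have hs := H268.nrd_star hn' hA.finrank_eq (star_algKD (D := D)) f Z hν
  obtain ⟨c, hc⟩ := (hA.fixed ν).mp ((algebraMap K Ω).injective (by rw [← hs, h, hν]))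
  obtain ⟨y, hy, hyd⟩ := exists_sym_nrdG hA hn f c
  have hZ0 := det_ne_zero_of f hZ
  have hyZ : (f y).det = (f Z).det := by rw [hyd, hν, hc]
  have hy0 : y ≠ 0 := by
    rintro rfl
    rw [map_zero, Matrix.det_zero] at hyZ
    exact hZ0 hyZ.symm
  refine ⟨Z * y⁻¹, y, mul_ne_zero hZ (inv_ne_zero hy0), hy0, hy, ?_,
    (inv_mul_cancel_right₀ hy0 Z).symm⟩
  have h1 : (f (Z * y⁻¹)).det * (f y).det = (f Z).det := by
    rw [← Matrix.det_mul, ← map_mul, inv_mul_cancel_right₀ hy0]
  rw [hyZ] at h1
  exact mul_right_cancel₀ hZ0 (by rw [h1, one_mul])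

end main

end Vale.Agent.P011.H308.C2
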