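import Vale.Agent.P011.H505.WangF

/-!
The theorem of Wang in every characteristic: the reduced Whitehead group is trivial over an infinite
field all of whose finite extensions have surjective reduced norms. (helper308, after helper505)
-/

set_option linter.unusedSectionVars false
set_option linter.unusedSimpArgs false

open Matrix Module TensorProduct

namespace Vale.Agent.P011.H308.C2

open Vale.Agent.P011S (bcf bcf_one_tmul exists_sylow_field mdU mdU_diagonal trf trf_one_tmul dgU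
  dgU_val dgU_mul exists_dgU tvU tvU_mul_apply)
open Vale.Agent.P011.W (HasNrd deg_pos)
open Vale.Agent.P011.H505.Wang

/-- An infinite field has an element different from zero and one. -/
theorem exists_ne01 (E : Type) [Field E] [Infinite E] : ∃ c : E, c ≠ 0 ∧ c ≠ 1 := by
  classical
  obtain ⟨c, hc⟩ := Infinite.exists_notMem_finset ({0, 1} : Finset E)
  simp only [Finset.mem_insert, Finset.mem_singleton, not_or] at hc
  exact ⟨c, hc.1, hc.2⟩

section tv

variable {Δ : Type} [DivisionRing Δ] {n : Type} [Fintype n] [DecidableEq n] {C : Type} [CommGroup C]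

theorem dg_tv (i j : n) (h : i ≠ j) (δ : Δˣ) (c : Δ) :
    dgU i δ * tvU i j h c = tvU i j h ((δ : Δ) * c) * dgU i δ := by
  apply Units.ext
  rw [Units.val_mul, Units.val_mul, dgU_val]
  change Matrix.diagonal _ * (1 + Matrix.single i j c) =
    (1 + Matrix.single i j ((δ : Δ) * c)) * Matrix.diagonal _
  rw [mul_add, add_mul, mul_one, one_mul]
  congr 1
  ext k l
  rw [Matrix.diagonal_mul, Matrix.mul_diagonal, Matrix.single_apply, Matrix.single_apply]
  by_cases hk : i = k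
  · by_cases hl : j = l
    · subst hk hl
      rw [if_pos ⟨rfl, rfl⟩, if_pos ⟨rfl, rfl⟩, Function.update_self,
        Function.update_of_ne (Ne.symm h), Pi.one_apply, mul_one]
    · rw [if_neg (fun h => hl h.2), if_neg (fun h => hl h.2), mul_zero, zero_mul]
  · rw [if_neg (fun h => hk h.1), if_neg (fun h => hk h.1), mul_zero, zero_mul]

theorem tv_add (i j : n) (h : i ≠ j) (a b : Δ) :
    tvU i j h (a + b) = tvU i j h a * tvU i j h b := by
  apply Units.ext
  rw [Units.val_mul]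
  change 1 + Matrix.single i j (a + b) = (1 + Matrix.single i j a) * (1 + Matrix.single i j b)
  rw [add_mul, mul_add, mul_add, Matrix.single_mul_single_of_ne _ _ _ _ h.symm, mul_one, one_mul,
    mul_one, add_zero, Matrix.single_add]
  abel

/-- Transvections are killed by homomorphisms to commutative groups, as soon as the division ring
has an element different from zero and one. -/
theorem chi_tvG (h2 : ∃ δ : Δ, δ ≠ 0 ∧ δ ≠ 1) (χ : (Matrix n n Δ)ˣ →* C) (i j : n) (h : i ≠ j)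
    (c : Δ) : χ (tvU i j h c) = 1 := by
  obtain ⟨δ, h0, h1⟩ := h2
  have h3 : δ - 1 ≠ 0 := sub_ne_zero.mpr h1
  have e1 := congrArg χ (dg_tv i j h (Units.mk0 δ h0) ((δ - 1)⁻¹ * c))
  rw [map_mul, map_mul, mul_comm] at e1
  have e2 := mul_right_cancel e1
  have e3 : ((Units.mk0 δ h0 : Δˣ) : Δ) * ((δ - 1)⁻¹ * c) = c + (δ - 1)⁻¹ * c := by
    rw [Units.val_mk0]
    calc δ * ((δ - 1)⁻¹ * c) = ((δ - 1) + 1) * ((δ - 1)⁻¹ * c) := by rw [sub_add_cancel]
      _ = c + (δ - 1)⁻¹ * c := by rw [add_mul, mul_inv_cancel_left₀ h3, one_mul]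
  rw [e3, tv_add, map_mul] at e2
  exact right_eq_mul.mp e2

end tv

section

variable {K D F : Type} [Field K] [Infinite K] [DivisionRing D] [Algebra K D]
  [FiniteDimensional K D] [Algebra.IsCentral K D] [Field F] [Algebra K F]
  {A : Type} [CommGroup A] (F0 : D → A)
  (hmul : ∀ a b : D, a ≠ 0 → b ≠ 0 → F0 (a * b) = F0 a * F0 b) (hneg : F0 (-1) = 1)

include hmul hneg

theorem sk1_part_all (hNS : NSur K) {p d : ℕ} (hp : p.Prime)
    (hD : finrank K D = d ^ 2) (f : D →ₐ[K] Matrix (Fin d) (Fin d) F) {u : D}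
    (hu : (f u).det = 1) : ∃ e, Nat.Coprime e p ∧ F0 u ^ e = 1 := by
  classical
  have : Fact p.Prime := ⟨hp⟩
  have hd : 0 < d := deg_pos hD
  have hu0 : u ≠ 0 := by
    rintro rfl
    have : Nonempty (Fin d) := ⟨⟨0, hd⟩⟩
    rw [map_zero, Matrix.det_zero] at hu
    exact zero_ne_one hu
  obtain ⟨N, _, _, _, _, ⟨g⟩⟩ := exists_galois_split' (K := K) (D := D) hD
  obtain ⟨E, hcop, a, ha⟩ := exists_sylow_field (k := K) (N := N) p
  obtain ⟨n, hn, Δ, i1, i2, i3, i4, ψ, j, hnq, hΔ, hnE⟩ := exists_data_pow hp ha g hD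
  have hcopn : Nat.Coprime n p := Nat.Coprime.coprime_dvd_left hnE hcop
  have hiE : Infinite E := Infinite.of_injective _ (algebraMap K E).injective
  have hNE : NSur E := hNS.ext E
  have h2Δ : ∃ δ : Δ, δ ≠ 0 ∧ δ ≠ 1 := by
    obtain ⟨c, hc0, hc1⟩ := exists_ne01 E
    refine ⟨algebraMap E Δ c, (_root_.map_ne_zero _).mpr hc0, fun h => hc1 ?_⟩
    rw [← map_one (algebraMap E Δ)] at h
    exact (algebraMap E Δ).injective h
  -- a common extension
  let F' := AlgebraicClosure F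
  let lift : E →ₐ[K] F' := IsAlgClosed.lift
  let algE : Algebra E F' := lift.toRingHom.toAlgebra
  have htow : IsScalarTower K E F' := IsScalarTower.of_algebraMap_eq fun x => (lift.commutes x).symm
  let f' : D →ₐ[K] Matrix (Fin d) (Fin d) F' :=
    ((Algebra.ofId F F').restrictScalars K).mapMatrix.comp f
  have hf' : (f' u).det = 1 := by
    have h1 : f' u = (f u).map (algebraMap F F') := rfl
    have h2 := RingHom.map_det (algebraMap F F') (f u)
    rw [hu, map_one] at h2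
    rw [h1]
    exact h2.symm
  let G : Matrix (Fin n) (Fin n) Δ →ₐ[E] Matrix (Fin d) (Fin d) F' :=
    (bcf f').comp (ψ.symm : Matrix (Fin n) (Fin n) Δ →ₐ[E] E ⊗[K] D)
  obtain ⟨f2, hf2⟩ := exists_corner G hnq
  let b := finBasis K E
  let θ : (Matrix (Fin n) (Fin n) Δ)ˣ →* A := (mdU F0 hmul hneg (finrank K E)).comp
    (Units.map (((trf b : E ⊗[K] D →ₐ[K] _) : E ⊗[K] D →* _).comp
      (ψ.symm : Matrix (Fin n) (Fin n) Δ →* E ⊗[K] D)))
  let χ : (Matrix (Fin n) (Fin n) Δ)ˣ →* A × F'ˣ :=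
    θ.prod (Units.map (Matrix.detMonoidHom.comp (G : _ →* Matrix (Fin d) (Fin d) F')))
  let U : (Matrix (Fin n) (Fin n) Δ)ˣ := Units.map
    ((ψ : E ⊗[K] D →* _).comp (Algebra.TensorProduct.includeRight : D →ₐ[K] E ⊗[K] D))
    (Units.mk0 u hu0)
  obtain ⟨δ, hδ⟩ := exists_dgU χ (chi_tvG h2Δ χ) 0 U
  have hδ1 : θ U = θ (dgU 0 δ) := congrArg Prod.fst hδ
  have hδ2 : (G (U : Matrix (Fin n) (Fin n) Δ)).det =
      (G (dgU 0 δ : (Matrix (Fin n) (Fin n) Δ)ˣ)).det :=
    congrArg Units.val (congrArg Prod.snd hδ)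
  have hU : ψ.symm (U : Matrix (Fin n) (Fin n) Δ) = 1 ⊗ₜ u := ψ.symm_apply_apply _
  have hθU : θ U = F0 u ^ finrank K E := by
    change mdU F0 hmul hneg (finrank K E) _ = _
    rw [mdU_diagonal F0 hmul hneg _ (fun _ => u) (fun _ => hu0), Finset.prod_const,
      Finset.card_univ, Fintype.card_fin]
    change trf b (ψ.symm (U : Matrix (Fin n) (Fin n) Δ)) = _
    rw [hU, trf_one_tmul]
  have hδ3 : (f2 (δ : Δ)).det = 1 := by
    rw [← hf2, ← hδ2]
    change (bcf f' (ψ.symm (U : Matrix (Fin n) (Fin n) Δ))).det = 1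
    rw [hU, bcf_one_tmul, hf']
  let F1 : Δ → A := fun x => if h : x = 0 then 1 else θ (scU (Fin n) (Units.mk0 x h))
  have hF1 : ∀ (x : Δ) (h : x ≠ 0), F1 x = θ (scU (Fin n) (Units.mk0 x h)) :=
    fun x h => dif_neg h
  have hδ4 : HasNrd E (p ^ j) (δ : Δ) 1 := hasNrd_of_det hΔ f2 (by rw [hδ3, map_one])
  obtain ⟨k, hk, h1⟩ : ∃ k, Nat.Coprime k p ∧ F1 (δ : Δ) ^ k = 1 := by
    refine sk1_aux hp A j E Δ hNE hΔ F1 ?_ ?_ (δ : Δ) hδ4
    · intro x y hx hy
      rw [hF1 _ hx, hF1 _ hy, hF1 _ (mul_ne_zero hx hy), ← map_mul, ← scU_mul]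
      congr 2
      exact Units.ext rfl
    · have hm : (-1 : Δ) ≠ 0 := neg_ne_zero.mpr one_ne_zero
      have hm' : (-1 : D) ≠ 0 := neg_ne_zero.mpr one_ne_zero
      rw [hF1 _ hm]
      change mdU F0 hmul hneg (finrank K E) _ = _
      rw [mdU_diagonal F0 hmul hneg _ (fun _ => -1) (fun _ => hm')]
      · exact Finset.prod_eq_one fun _ _ => hneg
      · change trf b (ψ.symm ((scU (Fin n) (Units.mk0 (-1 : Δ) hm) : (Matrix (Fin n) (Fin n) Δ)ˣ) :
          Matrix (Fin n) (Fin n) Δ)) = _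
        have e1 : ((scU (Fin n) (Units.mk0 (-1 : Δ) hm) : (Matrix (Fin n) (Fin n) Δ)ˣ) :
            Matrix (Fin n) (Fin n) Δ) = -1 := by
          rw [scU_val, Units.val_mk0]
          ext i k
          rw [Matrix.diagonal_apply, Matrix.neg_apply, Matrix.one_apply]
          split_ifs <;> simp
        rw [e1, map_neg, map_one, map_neg, map_one]
        ext i k
        rw [Matrix.diagonal_apply, Matrix.neg_apply, Matrix.one_apply]
        split_ifs <;> simp
  refine ⟨finrank K E * (n * k), Nat.Coprime.mul_left hcop (Nat.Coprime.mul_left hcopn hk), ?_⟩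
  have h3 : F1 (δ : Δ) = (F0 u ^ finrank K E) ^ n := by
    rw [hF1 _ δ.ne_zero, ← hθU, hδ1]
    have e1 : Units.mk0 (δ : Δ) δ.ne_zero = δ := Units.ext rfl
    rw [e1, chi_scU θ 0 δ, Fintype.card_fin]
  rw [pow_mul, pow_mul, ← h3, h1]

/-- **The theorem of Wang.** -/
theorem sk1_all (hNS : NSur K) {d : ℕ}
    (hD : finrank K D = d ^ 2) (f : D →ₐ[K] Matrix (Fin d) (Fin d) F) {u : D}
    (hu : (f u).det = 1) : F0 u = 1 := by
  rw [← orderOf_eq_one_iff]
  by_contra hne1
  obtain ⟨p, hp, hpo⟩ := Nat.exists_prime_and_dvd hne1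
  obtain ⟨e, he, he1⟩ := sk1_part_all F0 hmul hneg hNS hp hD f hu
  have h5 : p ∣ e := hpo.trans (orderOf_dvd_of_pow_eq_one he1)
  have h7 := Nat.dvd_gcd h5 (dvd_refl p)
  rw [he.gcd_eq_one] at h7
  exact hp.one_lt.ne' (Nat.dvd_one.mp h7)

end


end Vale.Agent.P011.H308.C2
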