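import Vale.Agent.P011.H308.C2.Sk1
import Vale.Agent.P011.H308.C2.Sym
import Vale.Agent.P011.H505.WangG

/-!
The reduced Whitehead group and the reduced unitary Whitehead group are trivial over every global
function field (every characteristic, letters `Anis`). (helper308, after helper505)
-/

open Module

set_option linter.unusedSectionVars false
set_option linter.unusedSimpArgs false

namespace Vale.Agent.P011.H308.C2

open Vale.Agent.P011.H738 Vale.Agent.P011.H271 Vale.Agent.P011.H505.Wang Vale.Agent.P011.Hey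

/-- **The theorem of Wang over global function fields**, every characteristic. -/
theorem sk1_ffG {K D Ω A : Type} [Field K] [GFF K] [DivisionRing D] [Algebra K D]
    [FiniteDimensional K D] [Algebra.IsCentral K D] [Field Ω] [Algebra K Ω] [CommGroup A]
    (F0 : D → A) (hmul : ∀ a b : D, a ≠ 0 → b ≠ 0 → F0 (a * b) = F0 a * F0 b)
    (hneg : F0 (-1) = 1) {d : ℕ} (hD : finrank K D = d ^ 2)
    (f : D →ₐ[K] Matrix (Fin d) (Fin d) Ω) {u : D} (hu : (f u).det = 1) : F0 u = 1 := by
  have hi : Infinite K := gff_infinite K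
  exact sk1_all F0 hmul hneg (nsur_ff K) hD f hu

variable {k K D Ω : Type} [Field k] [Field K] [StarRing K] [DivisionRing D] [StarRing D]
  [Algebra k K] [Algebra k D] [Algebra K D] [IsScalarTower k K D] [StarModule K D] [Field Ω]
  [Algebra K Ω] {n : ℕ} {A : Type} [CommGroup A]

/-- **The reduced unitary Whitehead group is trivial over every global function field.** -/
theorem suk_all_ffG [GFF k] (hA : Anis k K D n) (hn : n ≠ 0)
    (f : D →ₐ[K] Matrix (Fin n) (Fin n) Ω) (F0 : D → A)
    (hmul : ∀ a b : D, a ≠ 0 → b ≠ 0 → F0 (a * b) = F0 a * F0 b)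
    (hsym : ∀ s : D, s ≠ 0 → star s = s → F0 s = 1) {Z : D} (hZ : Z ≠ 0)
    (h : (f (star Z)).det = (f Z).det) : F0 Z = 1 := by
  have := fin_KD hA hn
  have := hA.central
  have hkK : FiniteDimensional k K := (Vale.Agent.P011.H519.quad hA.fixed hA.star_ne).1
  have hK : GFF K := Hey.H63.gff_of_finite (k := k)
  obtain ⟨u, y, hu, hy0, hy, hu1, rfl⟩ := exists_sym_factorG hA hn f hZ h
  rw [hmul u y hu hy0, hsym y hy0 hy, mul_one]
  exact sk1_ffG F0 hmul (hsym (-1) (neg_ne_zero.mpr one_ne_zero)
    (by rw [star_neg, star_one])) hA.finrank_eq f hu1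

end Vale.Agent.P011.H308.C2
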